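import Vale.Agent.P092.Bdl.B3

namespace Vale.Agent.P092

/-- Isomorphisms `L(SL₃(R)) → L(Λ)` are canonical exactly when they satisfy the root condition. -/
theorem main_iff {R Λ H K : Type*} [CommRing R] [NoZeroDivisors R] [Infinite R] [Group Λ]
    [NormedAddCommGroup H] [InnerProductSpace ℂ H] [CompleteSpace H]
    [NormedAddCommGroup K] [InnerProductSpace ℂ K] [CompleteSpace K]
    (h3 : ∀ a : R, a ^ 3 = 1 → a = 1) (hgen : ElemGen R)
    (b : HilbertBasis (Matrix.SpecialLinearGroup (Fin 3) R) ℂ H) (b' : HilbertBasis Λ ℂ K)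
    (θ : (H →L[ℂ] H) → (K →L[ℂ] K)) (h : IsStarIso (LGrp b) (LGrp b') θ) :
    IsCanonical b b' θ ↔ RootCondition b b' θ := by
  obtain ⟨S, hS⟩ := SL3.data_of h3 (SL3.gen_of hgen)
  exact main_of_trace h3 hgen h (trace_unique b b' (SL3.icc_of S hS) (bundle h))

lemma int_cube (a : ℤ) (h : a ^ 3 = 1) : a = 1 := by
  have h1 : (a - 1) * (a ^ 2 + a + 1) = 0 := by linear_combination h
  rcases mul_eq_zero.mp h1 with h2 | h2
  · linarith
  · nlinarith [sq_nonneg (2 * a + 1)]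

end Vale.Agent.P092

namespace Vale.Agent.Results.P092.RootSubgroups

open Vale.Agent.P092

universe u v w z

theorem result :
    (∀ (Λ : Type u) [Group Λ] (H : Type v) (K : Type w)
      [NormedAddCommGroup H] [InnerProductSpace ℂ H] [CompleteSpace H]
      [NormedAddCommGroup K] [InnerProductSpace ℂ K] [CompleteSpace K]
      (b : HilbertBasis (Matrix.SpecialLinearGroup (Fin 3) ℤ) ℂ H) (b' : HilbertBasis Λ ℂ K)
      (θ : (H →L[ℂ] H) → (K →L[ℂ] K)), IsStarIso (LGrp b) (LGrp b') θ →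
        (IsCanonical b b' θ ↔ RootCondition b b' θ)) ∧
    (∀ (R : Type z) [CommRing R] [IsDomain R] [Infinite R],
      (∀ a : R, a ^ 3 = 1 → a = 1) → ElemGen R →
      ∀ (Λ : Type u) [Group Λ] (H : Type v) (K : Type w)
      [NormedAddCommGroup H] [InnerProductSpace ℂ H] [CompleteSpace H]
      [NormedAddCommGroup K] [InnerProductSpace ℂ K] [CompleteSpace K]
      (b : HilbertBasis (Matrix.SpecialLinearGroup (Fin 3) R) ℂ H) (b' : HilbertBasis Λ ℂ K)
      (θ : (H →L[ℂ] H) → (K →L[ℂ] K)), IsStarIso (LGrp b) (LGrp b') θ →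
        (IsCanonical b b' θ ↔ RootCondition b b' θ)) :=
  ⟨fun _ _ _ _ _ _ _ _ _ _ b b' θ h => main_iff int_cube SL3.elemGen_of_euclidean b b' θ h,
    fun _ _ _ _ h3 hgen _ _ _ _ _ _ _ _ _ _ b b' θ h => main_iff h3 hgen b b' θ h⟩

end Vale.Agent.Results.P092.RootSubgroups
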